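import Mathlib
import Crest.Agent.Helper7.TreeDefs
import Crest.Agent.Helper27.LpSum

/-!
# Tests of the truncated global model from square-summable families (helper27)

* `pathPotential_eq_sum_tails` : the potential at `s` is the sum over the suffixes of `s`.
* `isT_extraH_of_sq` : a family vanishing above height `n` with `(n+1) ∑ g² ≤ 1` is a test of the
  height-`n` global model.
-/

set_option autoImplicit false

open Crest.AnalysisR Crest.AnalysisR.TreePotential Crest.Agent.Helper7 Crest.Agent.Helper7.Tree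

namespace Crest.Agent.Helper27

/-- The potential at `s` is the sum of the values over the suffixes of `s`. -/
theorem pathPotential_eq_sum_tails (g : List ℕ → ℝ) (s : List ℕ) :
    pathPotential g s = ∑ u ∈ s.tails.toFinset, g u := by
  induction s with
  | nil => simp [pathPotential]
  | cons a v ih =>
    have hnot : (a :: v) ∉ v.tails.toFinset := by
      rw [List.mem_toFinset, List.mem_tails]
      intro h
      have := h.length_le
      simp at this
    rw [pathPotential, List.tails_cons, List.toFinset_cons, Finset.sum_insert hnot, ih]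
    ring

/-- Potentials of a family vanishing above height `n` with `(n+1) ∑ g² ≤ 1` are bounded by `1`
(Cauchy–Schwarz over the at most `n+1` suffixes of length at most `n`). -/
theorem abs_pathPotential_le_one (n : ℕ) (g : List ℕ → ℝ)
    (h0 : ∀ s : List ℕ, n < s.length → g s = 0)
    (hsq : ∀ A : Finset (List ℕ), (n + 1 : ℝ) * ∑ u ∈ A, g u ^ 2 ≤ 1) (s : List ℕ) :
    abs (pathPotential g s) ≤ 1 := by
  classical
  rw [pathPotential_eq_sum_tails]
  set B : Finset (List ℕ) := s.tails.toFinset.filter (fun u => u.length ≤ n) with hB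
  have h1 : ∑ u ∈ B, g u = ∑ u ∈ s.tails.toFinset, g u := by
    rw [hB]
    apply Finset.sum_filter_of_ne
    intro u _ hu
    by_contra h
    exact hu (h0 u (not_le.mp h))
  have hcard : B.card ≤ n + 1 := by
    have h2 : B.card ≤ (Finset.range (n + 1)).card := by
      apply Finset.card_le_card_of_injOn List.length
      · intro u hu
        rw [hB, Finset.coe_filter] at hu
        have := hu.2
        simp only [Finset.coe_range, Set.mem_Iio]
        omega
      · intro u hu v hv huv
        rw [hB, Finset.coe_filter] at hu hv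
        have hu' : u <:+ s := (List.mem_tails u s).mp (List.mem_toFinset.mp hu.1)
        have hv' : v <:+ s := (List.mem_tails v s).mp (List.mem_toFinset.mp hv.1)
        exact (List.suffix_of_suffix_length_le hu' hv' (le_of_eq huv)).eq_of_length huv
    simpa using h2
  have hcs := sq_sum_le_card_mul_sum_sq (s := B) (f := g)
  have hnn : 0 ≤ ∑ u ∈ B, g u ^ 2 := Finset.sum_nonneg fun u _ => sq_nonneg _
  have hle : (∑ u ∈ B, g u) ^ 2 ≤ 1 := by
    calc (∑ u ∈ B, g u) ^ 2 ≤ (B.card : ℝ) * ∑ u ∈ B, g u ^ 2 := hcs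
      _ ≤ (n + 1 : ℝ) * ∑ u ∈ B, g u ^ 2 := by
          apply mul_le_mul_of_nonneg_right _ hnn
          exact_mod_cast hcard
      _ ≤ 1 := hsq B
  rw [← h1]
  exact (sq_le_one_iff_abs_le_one _).mp hle

/-- A family vanishing above height `n` with `(n+1) ∑ g² ≤ 1` is a test of the height-`n` global
model. -/
theorem isT_extraH_of_sq (n : ℕ) (g : List ℕ → ℝ)
    (h0 : ∀ s : List ℕ, n < s.length → g s = 0)
    (hsq : ∀ A : Finset (List ℕ), (n + 1 : ℝ) * ∑ u ∈ A, g u ^ 2 ≤ 1) :
    IsT (ExtraH n) g := by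
  refine ⟨abs_pathPotential_le_one n g h0 hsq, ?_, h0⟩
  intro A
  have hnn : 0 ≤ ∑ u ∈ A, g u ^ 2 := Finset.sum_nonneg fun u _ => sq_nonneg _
  have h1 := hsq A
  have hn : (0 : ℝ) ≤ n := Nat.cast_nonneg n
  nlinarith

/-- The vertices of height at most `n`. -/
abbrev Vtx (n : ℕ) : Type := {s : List ℕ // s.length ≤ n}

/-- Lower bound for an element of the block that acts on tests as the pairing with a
square-summable coefficient family `c`: `‖c‖₂ ≤ √(n+1) ‖y‖`. -/
theorem norm_le_sqrt_mul_of_apply (n : ℕ) (c : lp (fun _ : Vtx n => ℝ) 2) (y : Block n)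
    (hy : ∀ f : Test (ExtraH n),
      (y : lp (fun _ : Test (ExtraH n) => ℝ) ⊤) f = ∑' s : Vtx n, c s * f.1 s.1) :
    ‖c‖ ≤ Real.sqrt (n + 1) * ‖y‖ := by
  classical
  have hr : 0 < Real.sqrt ((n : ℝ) + 1) := Real.sqrt_pos.mpr (by positivity)
  have hr2 : Real.sqrt ((n : ℝ) + 1) ^ 2 = (n : ℝ) + 1 := Real.sq_sqrt (by positivity)
  rcases eq_or_lt_of_le (norm_nonneg c) with hN | hN
  · rw [← hN]
    exact mul_nonneg hr.le (norm_nonneg _)
  set r : ℝ := Real.sqrt ((n : ℝ) + 1) with hrdef
  set N : ℝ := ‖c‖ with hNdef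
  have hrN : 0 < r * N := mul_pos hr hN
  let g : List ℕ → ℝ := fun s => if h : s.length ≤ n then c ⟨s, h⟩ / (r * N) else 0
  have hg_sub : ∀ x : Vtx n, g x.1 = c x / (r * N) := by
    intro x
    simp only [g, dif_pos x.2]
  have h0 : ∀ s : List ℕ, n < s.length → g s = 0 := by
    intro s hs
    simp only [g, dif_neg (not_le.mpr hs)]
  have hsq : ∀ A : Finset (List ℕ), (n + 1 : ℝ) * ∑ u ∈ A, g u ^ 2 ≤ 1 := by
    intro A
    have h1 : ∑ u ∈ A, g u ^ 2 = ∑ u ∈ A.filter (fun u => u.length ≤ n), g u ^ 2 := by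
      symm
      apply Finset.sum_filter_of_ne
      intro u _ hu
      by_contra h
      apply hu
      rw [h0 u (not_le.mp h)]
      norm_num
    have h2 : ∑ u ∈ A.filter (fun u => u.length ≤ n), g u ^ 2 =
        ∑ x ∈ A.subtype (fun u => u.length ≤ n), g x.1 ^ 2 :=
      (Finset.sum_subtype_eq_sum_filter (fun u => g u ^ 2)).symm
    have h3 : ∑ x ∈ A.subtype (fun u => u.length ≤ n), g x.1 ^ 2 =
        (∑ x ∈ A.subtype (fun u => u.length ≤ n), ‖c x‖ ^ 2) / (r * N) ^ 2 := by
      rw [Finset.sum_div]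
      refine Finset.sum_congr rfl fun x _ => ?_
      rw [hg_sub x, div_pow, Real.norm_eq_abs, sq_abs]
    have h4 : ∑ x ∈ A.subtype (fun u => u.length ≤ n), ‖c x‖ ^ 2 ≤ N ^ 2 :=
      sum_norm_sq_le c _
    rw [h1, h2, h3]
    have h5 : (r * N) ^ 2 = ((n : ℝ) + 1) * N ^ 2 := by rw [mul_pow, hr2]
    rw [h5, ← mul_div_assoc, div_le_one (by positivity)]
    exact mul_le_mul_of_nonneg_left h4 (by positivity)
  have hyf := hy ⟨g, isT_extraH_of_sq n g h0 hsq⟩
  have hsum : ∑' s : Vtx n, c s * g s.1 = N / r := by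
    have h1 : HasSum (fun s : Vtx n => ‖c s‖ ^ 2 / (r * N)) (N ^ 2 / (r * N)) :=
      (hasSum_norm_sq c).div_const (r * N)
    have h2 : (fun s : Vtx n => c s * g s.1) = fun s : Vtx n => ‖c s‖ ^ 2 / (r * N) := by
      funext s
      rw [hg_sub s, Real.norm_eq_abs, sq_abs]
      ring
    rw [h2, h1.tsum_eq]
    field_simp
  have hle : abs ((y : lp (fun _ : Test (ExtraH n) => ℝ) ⊤) ⟨g, isT_extraH_of_sq n g h0 hsq⟩) ≤
      ‖y‖ := abs_evalT_le (ExtraH n) _ y
  rw [hyf] at hle
  have hsum' : ∑' s : Vtx n, c s * g s.1 = N / r := hsum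
  rw [hsum', abs_of_pos (div_pos hN hr), div_le_iff₀ hr] at hle
  linarith

end Crest.Agent.Helper27
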