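import Mathlib
import Crest.Agent.Helper27.Reflexive

/-!
# Reflexivity from a bounded-below operator with dense range out of a Hilbert space (helper27)
-/

set_option autoImplicit false
set_option linter.unusedVariables false

open scoped NNReal

namespace Crest.Agent.Helper27

variable {H X : Type*} [NormedAddCommGroup H] [NormedSpace ℝ H] [CompleteSpace H]
  [NormedAddCommGroup X] [NormedSpace ℝ X]

/-- A bounded-below continuous linear map with dense range out of a complete space is onto. -/
theorem surjective_of_bddBelow_denseRange (J : H →L[ℝ] X) {c : ℝ} (hc : 0 < c)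
    (hJ : ∀ a, c * ‖a‖ ≤ ‖J a‖) (hd : DenseRange J) : Function.Surjective J := by
  have hanti : AntilipschitzWith (Real.toNNReal c⁻¹) J := by
    refine J.antilipschitz_of_bound fun x => ?_
    rw [Real.coe_toNNReal _ (inv_pos.mpr hc).le, ← div_eq_inv_mul, le_div_iff₀ hc]
    linarith [hJ x]
  have hclosed : IsClosed (Set.range J) := hanti.isClosed_range J.uniformContinuous
  intro x
  have hx : x ∈ closure (Set.range J) := hd x
  rwa [hclosed.closure_eq] at hx

omit [CompleteSpace H] in
/-- A bounded-below linear map is injective. -/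
theorem injective_of_bddBelow (J : H →L[ℝ] X) {c : ℝ} (hc : 0 < c)
    (hJ : ∀ a, c * ‖a‖ ≤ ‖J a‖) : Function.Injective J := by
  intro a b hab
  have h1 : J (a - b) = 0 := by rw [map_sub]; exact sub_eq_zero.mpr hab
  have h2 := hJ (a - b)
  rw [h1, norm_zero] at h2
  have h3 : ‖a - b‖ ≤ 0 := by
    by_contra hcon
    rw [not_le] at hcon
    nlinarith
  exact sub_eq_zero.mp (norm_le_zero_iff.mp h3)

/-- The underlying linear equivalence. -/
noncomputable def linEquivOfBddBelowDenseRange (J : H →L[ℝ] X) {c : ℝ} (hc : 0 < c)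
    (hJ : ∀ a, c * ‖a‖ ≤ ‖J a‖) (hd : DenseRange J) : H ≃ₗ[ℝ] X :=
  LinearEquiv.ofBijective (J : H →ₗ[ℝ] X)
    ⟨injective_of_bddBelow J hc hJ, surjective_of_bddBelow_denseRange J hc hJ hd⟩

theorem linEquivOfBddBelowDenseRange_apply (J : H →L[ℝ] X) {c : ℝ} (hc : 0 < c)
    (hJ : ∀ a, c * ‖a‖ ≤ ‖J a‖) (hd : DenseRange J) (a : H) :
    linEquivOfBddBelowDenseRange J hc hJ hd a = J a := rfl

/-- A bounded-below continuous linear map with dense range out of a complete space is a
continuous linear equivalence. -/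
noncomputable def equivOfBddBelowDenseRange (J : H →L[ℝ] X) {c : ℝ} (hc : 0 < c)
    (hJ : ∀ a, c * ‖a‖ ≤ ‖J a‖) (hd : DenseRange J) : H ≃L[ℝ] X :=
  (linEquivOfBddBelowDenseRange J hc hJ hd).toContinuousLinearEquivOfBounds ‖J‖ c⁻¹
    (fun x => J.le_opNorm x)
    (fun x => by
      have h1 : J ((linEquivOfBddBelowDenseRange J hc hJ hd).symm x) = x :=
        (linEquivOfBddBelowDenseRange J hc hJ hd).apply_symm_apply x
      have h2 := hJ ((linEquivOfBddBelowDenseRange J hc hJ hd).symm x)
      rw [h1] at h2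
      rw [← div_eq_inv_mul, le_div_iff₀ hc]
      linarith)

@[simp] theorem equivOfBddBelowDenseRange_apply (J : H →L[ℝ] X) {c : ℝ} (hc : 0 < c)
    (hJ : ∀ a, c * ‖a‖ ≤ ‖J a‖) (hd : DenseRange J) (a : H) :
    equivOfBddBelowDenseRange J hc hJ hd a = J a := rfl

/-- If a Hilbert space maps onto a dense subspace of `X` by a bounded-below continuous linear
map, then `X` is reflexive. -/
theorem reflexive_of_bddBelow_denseRange {H : Type*} [NormedAddCommGroup H]
    [InnerProductSpace ℝ H] [CompleteSpace H] (J : H →L[ℝ] X) {c : ℝ} (hc : 0 < c)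
    (hJ : ∀ a, c * ‖a‖ ≤ ‖J a‖) (hd : DenseRange J) : Reflexive X :=
  (reflexive_of_hilbert (H := H)).of_equiv (equivOfBddBelowDenseRange J hc hJ hd).symm

/-- Infinite-dimensionality transfers along the equivalence. -/
theorem not_finiteDimensional_of_bddBelow_denseRange (J : H →L[ℝ] X) {c : ℝ} (hc : 0 < c)
    (hJ : ∀ a, c * ‖a‖ ≤ ‖J a‖) (hd : DenseRange J) (hH : ¬ FiniteDimensional ℝ H) :
    ¬ FiniteDimensional ℝ X := fun h =>
  hH ((equivOfBddBelowDenseRange J hc hJ hd).symm.toLinearEquiv.finiteDimensional)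

end Crest.Agent.Helper27
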